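import Vale.Agent.P119.AU.Q1
import Vale.Agent.P119.H369.Assembly

namespace Vale.Agent.Results.P119.AMolecularChaos

open Vale.Agent.P119.H369

/-- **The Boltzmann-Grad limit for short-range potentials.** For every potential `Φ`, every datum
`f₀` and all `β, T > 0`, Newton's equations are uniquely globally solvable from all the allowed
configurations, and all the rescaled factorial marginals exist, with mass at most one. If `Φ` is
stable and `f` is a kinetic solution on `[0, T]`, then

* every marginal `F^ε_s(t)` converges to `f(t)^{⊗ s}` in `L¹`, uniformly on `[0, T]`;
* the empirical averages `μ_ε⁻¹ ∑_i a(z_i(t))` converge in mean square to `∫ a f(t)`, uniformly in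
  `t ∈ [0, T]` and in the measurable observable `a` with `|a| ≤ 1`;
* `f` is the only kinetic solution on `[0, T]`. -/
theorem result : BoltzmannGradLimit (E := EuclideanSpace ℝ (Fin 3))
    (fun k => WithLp.toLp 2 (fun i => (k i : ℝ))) :=
  main_of Vale.Agent.P119.AU.questionOne

end Vale.Agent.Results.P119.AMolecularChaos
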