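import Vale.Agent.P119.AU.Side
import Vale.Agent.P119.AU.Mono
import Vale.Agent.P119.END.AliveRed
import Vale.Agent.P119.FB.First
import Vale.Agent.P119.FB.Flip
import Vale.Agent.P119.FB.Guard
import Vale.Agent.P119.FL.Guard
import Vale.Agent.P119.FL.Horizon
import Vale.Agent.P119.IND.AttachGen
import Vale.Agent.P119.IND.Base
import Vale.Agent.P119.IND.ExcProg
import Vale.Agent.P119.IND.GraftIrr
import Vale.Agent.P119.IND.Head
import Vale.Agent.P119.IND.IgLaw
import Vale.Agent.P119.IND.PairOut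
import Vale.Agent.P119.IND.RTClean
import Vale.Agent.P119.IND.TriExt
import Vale.Agent.P119.KE.Depth
import Vale.Agent.P119.KT.Far
import Vale.Agent.P119.KT.Gen
import Vale.Agent.P119.M.Good
import Vale.Agent.P119.ML.Cap0
import Vale.Agent.P119.ML.FH7
import Vale.Agent.P119.ML.Hier
import Vale.Agent.P119.ML.InRDef
import Vale.Agent.P119.ML.IrrGerm
import Vale.Agent.P119.ML.Quench
import Vale.Agent.P119.ML.Rate
import Vale.Agent.P119.ML.TreeL1
import Vale.Agent.P119.PB.Cont1
import Vale.Agent.P119.PB.CrudeDF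
import Vale.Agent.P119.PB.DM3
import Vale.Agent.P119.PB.Exh3
import Vale.Agent.P119.PB.GcComm
import Vale.Agent.P119.PB.Op8
import Vale.Agent.P119.PB.RefNm
import Vale.Agent.P119.PB.SE5
import Vale.Agent.P119.PB.SENear
import Vale.Agent.P119.PB.Sub
import Vale.Agent.P119.PB.SumC
import Vale.Agent.P119.PB.TouchHit
import Vale.Agent.P119.PB.X
import Vale.Agent.P119.TF.Lines
import Vale.Agent.P119.TL.Base
import Vale.Agent.P119.TL.Glue
import Vale.Agent.P119.TL.Late
import Vale.Agent.P119.TL.Without2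

namespace Vale.Agent.Results.P119.ANewtonEnergy

open Vale.Agent.P119

/-- For a stable potential the kinetic energy of the particles stays bounded by its initial value
plus `B` times the number of particles, with `B` independent of the range `ε`. -/
theorem result (Φ : EuclideanSpace ℝ (Fin 3) → ℝ) (hΦ : Stmt.IsPotential Φ)
    (hs : Stmt.IsStable Φ) :
    ∃ B : ℝ, 0 ≤ B ∧ ∀ ε : ℝ, 0 < ε → ∀ (N : ℕ)
      (Z : Fin N → EuclideanSpace ℝ (Fin 3) × EuclideanSpace ℝ (Fin 3)), Z ∈ Stmt.excl ε N →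
      ∀ z : ℝ → Fin N → EuclideanSpace ℝ (Fin 3) × EuclideanSpace ℝ (Fin 3),
        Stmt.IsNewton (gradient Φ) ε Z z → ∀ t : ℝ,
          ∑ i, ‖(z t i).2‖ ^ 2 ≤ ∑ i, ‖(Z i).2‖ ^ 2 + B * N :=
  AU.newton_energy hΦ hs

end Vale.Agent.Results.P119.ANewtonEnergy
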