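import Vale.Agent.P119.AU.Side
import Vale.Agent.P119.AU.Master
import Vale.Agent.P119.END.AliveFin
import Vale.Agent.P119.FL.SumXC
import Vale.Agent.P119.IND.ChainLaw
import Vale.Agent.P119.IND.Irrs
import Vale.Agent.P119.IND.L2Norm
import Vale.Agent.P119.IND.LateNI
import Vale.Agent.P119.IND.NearDrp
import Vale.Agent.P119.IND.NearM
import Vale.Agent.P119.IND.PairOut
import Vale.Agent.P119.IND.TriLaw
import Vale.Agent.P119.KT.ChainProb
import Vale.Agent.P119.KT.RelDet
import Vale.Agent.P119.ML.GSysInst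
import Vale.Agent.P119.ML.InI1Main
import Vale.Agent.P119.ML.SvConv
import Vale.Agent.P119.ML.SysS
import Vale.Agent.P119.ML.TwoLim
import Vale.Agent.P119.PB.BL
import Vale.Agent.P119.PB.BadPc
import Vale.Agent.P119.PB.ContDirP2
import Vale.Agent.P119.PB.CreInt3
import Vale.Agent.P119.PB.ExAdr
import Vale.Agent.P119.PB.Exc5R
import Vale.Agent.P119.PB.ExcOne
import Vale.Agent.P119.PB.GcComm
import Vale.Agent.P119.PB.HitGood
import Vale.Agent.P119.PB.In8a
import Vale.Agent.P119.PB.IrrLim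
import Vale.Agent.P119.PB.IrrUm1
import Vale.Agent.P119.PB.Iter6
import Vale.Agent.P119.PB.LamD
import Vale.Agent.P119.PB.P9BdF
import Vale.Agent.P119.PB.RelRed
import Vale.Agent.P119.PB.RelTreeB
import Vale.Agent.P119.PB.RelTreeX
import Vale.Agent.P119.PB.SumC
import Vale.Agent.P119.PB.TEG
import Vale.Agent.P119.PB.TopP2
import Vale.Agent.P119.PB.TriP
import Vale.Agent.P119.PB.YWexp
import Vale.Agent.P119.RM.Ex6
import Vale.Agent.P119.RM.GoodP
import Vale.Agent.P119.RM.Root
import Vale.Agent.P119.TL.Core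

namespace Vale.Agent.Results.P119.ANewtonGlobal

open Vale.Agent.P119

/-- Newton's equations are uniquely globally solvable from the configurations in which all
distances are `> ε`. -/
theorem result (Φ : EuclideanSpace ℝ (Fin 3) → ℝ) (hΦ : Stmt.IsPotential Φ) (ε : ℝ) (hε : 0 < ε)
    (N : ℕ) (Z : Fin N → EuclideanSpace ℝ (Fin 3) × EuclideanSpace ℝ (Fin 3))
    (hZ : Z ∈ Stmt.excl ε N) : ∃! z, Stmt.IsNewton (gradient Φ) ε Z z :=
  AU.newton_global hΦ hε hZ

end Vale.Agent.Results.P119.ANewtonGlobal
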