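import Vale.Agent.P119.AU.Q1

namespace Vale.Agent.Results.P119.AQuestionOne

open Vale.Agent.P119

/-- **Q1**: for every stable potential, every datum and every regular kinetic interval `[0, T]` with
its solution `f`, the rescaled factorial marginals of every order converge to the tensor powers of
`f(t)` in `L¹`, uniformly on `[0, T]`. -/
theorem result : Stmt.QuestionOne (E := EuclideanSpace ℝ (Fin 3))
    (fun k => WithLp.toLp 2 (fun i => (k i : ℝ))) :=
  AU.questionOne

end Vale.Agent.Results.P119.AQuestionOne
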